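import Vale.Agent.P309F.Final

open MeasureTheory ProbabilityTheory Real

namespace Vale.Agent.Results.P309.AFullLogBound

open Vale.Agent.P309 Vale.Agent.P309F

/-- The full memory-sample bound for noiseless Gaussian linear regression. -/
theorem result : ∃ C : ℝ, 0 < C ∧
    (∀ (d : ℕ), 64 ≤ d → ∀ (M T : ℕ) (V : Type) [Fintype V]
      (L : Learner d V) (ε : ℝ), 0 < ε → ε < 1 / 4 → Fintype.card V ≤ 2 ^ M →
      2 / 3 ≤ L.success T ε →
      log (1 / ε) ≤ C * (1 + (M : ℝ) / (d : ℝ) ^ 2) * (1 + (T : ℝ) / (d : ℝ))) ∧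
    (∀ c : ℝ, 0 < c → ∃ c' ε₀ : ℝ, 0 < c' ∧ 0 < ε₀ ∧
      ∀ (d : ℕ), 64 ≤ d → ∀ (M T : ℕ) (V : Type) [Fintype V]
        (L : Learner d V) (ε : ℝ), 0 < ε → ε < ε₀ → Fintype.card V ≤ 2 ^ M →
        (M : ℝ) ≤ c * (d : ℝ) ^ 2 → 2 / 3 ≤ L.success T ε →
        c' * (d : ℝ) * log (1 / ε) ≤ T) := by
  obtain ⟨C, hC, h⟩ := main_full
  refine ⟨C, hC, h, ?_⟩
  intro c hc
  set K : ℝ := C * (1 + c) with hK
  have hK0 : 0 < K := by positivity
  refine ⟨1 / (2 * K), min (1 / 4) (rexp (-(2 * K))), by positivity, by positivity, ?_⟩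
  intro d hd M T V _ L ε hε0 hε hV hM hsucc
  have hb := h d hd M T V L ε hε0 (lt_of_lt_of_le hε (min_le_left _ _)) hV hsucc
  have hd0 : (0 : ℝ) < d := by
    have : 0 < d := by omega
    exact_mod_cast this
  have hX : 2 * K ≤ log (1 / ε) := by
    have h1 : ε < rexp (-(2 * K)) := lt_of_lt_of_le hε (min_le_right _ _)
    have h2 : log ε < -(2 * K) := (Real.log_lt_iff_lt_exp hε0).2 h1
    rw [one_div, Real.log_inv]
    linarith
  have hm : (M : ℝ) / (d : ℝ) ^ 2 ≤ c := by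
    rw [div_le_iff₀ (by positivity)]
    exact hM
  have ht0 : (0 : ℝ) ≤ (T : ℝ) / d := by positivity
  have h3 : log (1 / ε) ≤ K * (1 + (T : ℝ) / (d : ℝ)) := by
    refine hb.trans ?_
    rw [hK]
    gcongr
  have h4 : log (1 / ε) / (2 * K) ≤ (T : ℝ) / d := by
    rw [div_le_iff₀ (by positivity)]
    nlinarith
  have h5 : (d : ℝ) * (log (1 / ε) / (2 * K)) ≤ (d : ℝ) * ((T : ℝ) / d) :=
    mul_le_mul_of_nonneg_left h4 hd0.le
  have e1 : (d : ℝ) * ((T : ℝ) / d) = T := by field_simp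
  have e2 : 1 / (2 * K) * (d : ℝ) * log (1 / ε) = (d : ℝ) * (log (1 / ε) / (2 * K)) := by ring
  rw [e2]
  linarith

end Vale.Agent.Results.P309.AFullLogBound
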