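import Vale.Agent.P309F.Final
import Vale.Agent.P309K.KLearner
import Vale.Agent.P309K.Memory

open MeasureTheory ProbabilityTheory Real

namespace Vale.Agent.Results.P309.ALeastHorizon

open Vale.Agent.P309 Vale.Agent.P309F Vale.Agent.P309K

/-- The least horizon for noiseless Gaussian linear regression with `M` bits. First part: the lower
bound on the number of samples for all memory sizes. Second part: with too few states no horizon
suffices. Third part: with `d log₂ (54 d² / ε)` bits, `4 d log (8 / ε)` samples suffice (finite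
precision Kaczmarz). -/
theorem result : ∃ C : ℝ, 0 < C ∧
    (∀ (d : ℕ), 64 ≤ d → ∀ (M T : ℕ) (V : Type) [Fintype V]
      (L : Learner d V) (ε : ℝ), 0 < ε → ε < 1 / 4 → Fintype.card V ≤ 2 ^ M →
      2 / 3 ≤ L.success T ε →
      log (1 / ε) ≤ C * (1 + (M : ℝ) / (d : ℝ) ^ 2) * (1 + (T : ℝ) / (d : ℝ))) ∧
    (∀ (d : ℕ), 3 ≤ d → ∀ (M T : ℕ) (V : Type) [Fintype V]
      (L : Learner d V) (ε : ℝ), 0 < ε → ε < 1 → Fintype.card V ≤ 2 ^ M →
      2 / 3 ≤ L.success T ε →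
      ((d : ℝ) - 3) * logb 2 (1 / ε) ≤ (M : ℝ) + d) ∧
    (∀ (d : ℕ), 1 ≤ d → ∀ (M T : ℕ) (ε : ℝ), 0 < ε → ε < 1 / 4 →
      (d : ℝ) * logb 2 (54 * (d : ℝ) ^ 2 / ε) ≤ M → 4 * (d : ℝ) * log (8 / ε) ≤ T →
      ∃ (V : Type) (_ : Fintype V) (L : Learner d V),
        Fintype.card V ≤ 2 ^ M ∧ 2 / 3 ≤ L.success T ε) := by
  obtain ⟨C, hC, h⟩ := main_full
  refine ⟨C, hC, h, ?_, ?_⟩
  · intro d hd M T V _ L ε h0 h1 hV hs
    exact memory_bound hd L T h0 h1 hs hV
  · intro d hd M T ε h0 h1 hM hT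
    exact kaczmarz_upper hd h0 h1 hM hT

end Vale.Agent.Results.P309.ALeastHorizon
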