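import Vale.Agent.P309.Learner

open MeasureTheory ProbabilityTheory Real

namespace Vale.Agent.Results.P309.NoiselessLogLog

open Vale.Agent.P309

theorem result : ∃ C : ℝ, 0 < C ∧ ∀ (d : ℕ), 16 ≤ d → ∀ (M T : ℕ) (V : Type) [Fintype V]
    (L : Learner d V) (ε : ℝ), 0 < ε → ε < 1 / 4 → Fintype.card V ≤ 2 ^ M →
    2 / 3 ≤ L.success T ε →
    log (1 / ε) ≤ C * (1 + (M : ℝ) / (d : ℝ) ^ 2) * (256 : ℝ) ^ ((T : ℝ) / (d : ℝ)) ∧
    (d : ℝ) / (8 * log 2) * log (log (1 / ε) / (C * (1 + (M : ℝ) / (d : ℝ) ^ 2))) ≤ T := by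
  obtain ⟨C, hC, h⟩ := main_bound
  refine ⟨C, hC, ?_⟩
  intro d hd M T V _ L ε hε0 hε hV hsucc
  have hb := h d hd M T V L ε hε0 hε hV hsucc
  refine ⟨hb, ?_⟩
  have hd0 : (0 : ℝ) < d := by
    have : 0 < d := by omega
    exact_mod_cast this
  have hX : 0 < log (1 / ε) := by
    apply Real.log_pos
    rw [lt_div_iff₀ hε0]
    linarith
  have hY : 0 < C * (1 + (M : ℝ) / (d : ℝ) ^ 2) := by positivity
  have hp : (0 : ℝ) < (256 : ℝ) ^ ((T : ℝ) / (d : ℝ)) := by positivity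
  have h1 : log (1 / ε) / (C * (1 + (M : ℝ) / (d : ℝ) ^ 2)) ≤ (256 : ℝ) ^ ((T : ℝ) / (d : ℝ)) := by
    rw [div_le_iff₀ hY]
    linarith
  have h2 := Real.log_le_log (div_pos hX hY) h1
  rw [Real.log_rpow (by norm_num)] at h2
  have h256 : log 256 = 8 * log 2 := by
    rw [show (256 : ℝ) = 2 ^ 8 by norm_num, Real.log_pow]
    norm_num
  rw [h256] at h2
  have hl2 : 0 < log 2 := Real.log_pos (by norm_num)
  have h3 : (d : ℝ) / (8 * log 2) * log (log (1 / ε) / (C * (1 + (M : ℝ) / (d : ℝ) ^ 2))) ≤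
      (d : ℝ) / (8 * log 2) * ((T : ℝ) / (d : ℝ) * (8 * log 2)) :=
    mul_le_mul_of_nonneg_left h2 (by positivity)
  have h4 : (d : ℝ) / (8 * log 2) * ((T : ℝ) / (d : ℝ) * (8 * log 2)) = T := by
    field_simp
  linarith

end Vale.Agent.Results.P309.NoiselessLogLog
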